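import Vale.Agent.P088.R2.H680.C.TubeF

/-!
# P088, stage 3: the tubes of region I, row TF

`rowTF : RowTF` (helper338's facts at the points of the tubes in region I).
-/

open Set Filter
open scoped ContDiff Topology

noncomputable section

namespace Vale.Agent.P088.R2.H680.C

open Vale.Agent.P088.LR Vale.Agent.P088.HY
open Vale.Agent.P088.R2.H31.EP Vale.Agent.P088.R2.H238.C Vale.Agent.P088.R2.H932.EP
open Vale.Agent.P088.R2.H205.CP (nuL OI)
open Vale.Agent.P088.R2.H338.TC (Na rx ry TF RowTF)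
open Vale.Agent.P088.R2.H464.Cu (mid)
open Vale.Agent.P088.R2.H222 (Bk UT aT bT pkT)

variable {n : ℕ} {q : Cst} {d : Pk n} {z : VV n}

/-- The conditions on the constants. -/
structure TQ (n : ℕ) (q : Cst) : Prop where
  c : Tc q
  E : Te n q
  M : 100 * n ≤ q.M₀
  ν : q.ν₁ ≤ q.c₀ / 5

theorem ev_TQ (n : ℕ) : EvC (TQ n) := by
  have h1 := EvC.loc n
  have h2 := EvC.pos
  have h3 := EvC.at_c₀ (fun _ t => t ≤ 1 / 1000) (fun _ => sml_le (by norm_num))
  have h4 := EvC.at_rT (fun _ t => t ≤ 1 / 200) (fun _ => sml_le (by norm_num))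
  have h5 := EvC.at_M₀ (fun _ t => 100 * (n : ℝ) ≤ t) (fun _ => eventually_ge_atTop _)
  have h6 := EvC.at_ν₁ (fun q t => t ≤ q.c₀ / 5 ∨ q.c₀ ≤ 0) (fun q => by
    by_cases h : q.c₀ ≤ 0
    · exact Eventually.of_forall fun _ => Or.inr h
    · filter_upwards [sml_le (a := q.c₀ / 5) (by linarith [not_le.1 h])] with t ht
      exact Or.inl ht)
  refine ((h1.and h2).and ((h3.and h4).and (h5.and h6))).mono ?_
  rintro q ⟨⟨⟨T, E⟩, ⟨⟨-, a2, -, -, -, -, -, a8, -, -⟩, -, -⟩⟩, ⟨b1, b2⟩, b3, b4⟩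
  exact ⟨⟨T, a2, b1, a8, b2⟩, E, b3, b4.resolve_right (not_le.2 T.c0)⟩

/-- The facts, given the window of the first pass. -/
theorem tf_of (hn : 1 ≤ n) (h : PkOk q d) (Q : TQ n q) {δ : ℝ} (hδ : δ ≤ 1)
    (H1 : ∀ y ∈ UT d.l 1 (aT cA q) (bT cA q), d.u q y = d.l y.1 + d.l y.2)
    (H2 : Bk 2 (UT d.l 1 (aT cA q) (bT cA q)) δ
      (fun y => d.W q y - H222.W0 (d.F q) d.l y)) (hz : z ∈ OI q d)
    (hr : rx q d z ≠ 0 ∨ ry q d z ≠ 0) : TF (4000 * n / (q.c₀ * q.rT)) q d z := by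
  have C := Q.c
  have T := C.T
  have L := OI_LI h T Q.E hz
  have hc0 := T.c0
  have hc := C.c
  have hlt : √(qq z) < 1 := by
    have h1 : √(qq z) ≤ 3 * q.c₀ := L.δ
    linarith
  have hG := NG_pos' h T C.e₁ hlt
  have kx := fun h0 : rx q d z ≠ 0 => rho_ne (ι := Sum.inl) hc0 C.r0 h0 hG
  have ky := fun h0 : ry q d z ≠ 0 => rho_ne (ι := Sum.inr) hc0 C.r0 h0 hG
  have hr2 := hz.1
  have q1 : 99 / 100 * qq z ≤ d.r2 z := r2_ge h T Q.E z
  have q2 : d.r2 z ≤ 101 / 100 * qq z := r2_le h T Q.E z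
  have hq0 := qq_nonneg z
  have t : Tz q d z :=
    { x := L.gz.1
      y := L.gz.2.1
      p := L.gz.2.2.1
      r1 := by
        rcases hr with h0 | h0
        · exact (kx h0).1
        · exact (ky h0).1
      r2 := by
        refine Real.sqrt_le_iff.2 ⟨by linarith, ?_⟩
        have : 0 < q.c₀ ^ 2 := by positivity
        linarith }
  have N : Tn q d z := by
    rcases hr with h0 | h0
    · exact tn_x h C t (kx h0).2
    · exact tn_y h C t (ky h0).2
  have w : Nw q d z := by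
    rcases L.pass with ⟨h1, -⟩ | ⟨-, h1⟩
    · exact nw_T h.lev.sm.continuous hδ (mem_UT h T L h1 N.E) H1 H2
    · exact nw_R hn h T Q.E h1
  have eu : d.u q z = d.u0 z := w.u.self_of_nhds
  have hR := T.R1
  have hu : d.u0 z ≤ d.uta q := by
    have h1 := L.nu.ut
    rw [eu] at h1
    have := uth_uta h T
    linarith
  exact tf hn h C Q.M t w N hu (kn h T Q.ν L eu hz.2.2.1 N.E) (by linarith)
    (fun h0 => (kx h0).2) fun h0 => (ky h0).2

/-- **Row TF.** -/
theorem rowTF : RowTF := by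
  intro n hn
  have hn1 : 1 ≤ n := by omega
  have hn' : (1 : ℝ) ≤ n := by exact_mod_cast hn1
  refine ⟨4000 * n, by linarith, ?_⟩
  obtain ⟨C, hC, hC0, hP⟩ := pkT (n := n) (k := 2) hn1 (by norm_num) (r0 := fun _ => 1) (A := cA)
    (fun _ => rfl) cA_NB (fun _ => zero_le_one) cA_pos
  have hε := EvC.ε_le (fun q => 1 / (C q + 1)) fun q => by
    show 1 / (C q.b_ε + 1) = 1 / (C q + 1)
    rw [hC q]
  refine ((ev_TQ n).and (hP.and hε)).mono ?_
  rintro q ⟨Q, hP, hε⟩ d h z hz - hr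
  have hCq := hC0 q
  have h1 := hε (by positivity)
  have hδ : C q * q.ε ≤ 1 := by
    rw [le_div_iff₀ (by positivity)] at h1
    linarith [Q.E.ε0]
  obtain ⟨-, p2, p3, -⟩ := hP d h
  exact tf_of hn1 h Q hδ (fun y hy => (p2 y hy).1.2) p3 hz hr

end Vale.Agent.P088.R2.H680.C
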