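import Vale.Agent.P088.R2.H238.C.Pt
import Vale.Agent.P088.R2.H606.EP.Prf
import Vale.Agent.P088.R2.H509.EP.Lit2

/-!
# P088, stage 3: the tubes of region I, the flat weight

First and second derivatives of `u0`, `G0`, `W0`, `NG` in the coordinate directions at points where
the level function is explicit.
-/

open Set Filter
open scoped ContDiff Topology

noncomputable section

namespace Vale.Agent.P088.R2.H680.C

open Vale.Agent.P088.LR Vale.Agent.P088.HY
open Vale.Agent.P088.R2.H31.EP Vale.Agent.P088.R2.H238.C Vale.Agent.P088.R2.H932.EP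
open Vale.Agent.P088.R2.H606.EP
open Vale.Agent.P088.R2.H961.GW (fd_fst fd_snd df_of sm_pd)

variable {n : ℕ} {q : Cst} {d : Pk n} {z : VV n}

/-- The coordinate directions. -/
def ex : Fin n ⊕ Fin n → VV n
  | Sum.inl i => (Pi.single i 1, 0)
  | Sum.inr i => (0, Pi.single i 1)

/-- The weights. -/
def w1 : Fin n ⊕ Fin n → ℝ := fun _ => 1

theorem w1_nn (i : Fin n ⊕ Fin n) : 0 ≤ w1 i := zero_le_one

theorem norm_ex (k : Fin n ⊕ Fin n) : ‖(ex k : VV n)‖ ≤ 1 := by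
  rcases k with i | i
  · simp [ex, Prod.norm_def, Pi.norm_single]
  · simp [ex, Prod.norm_def, Pi.norm_single]

/-! ## The level -/

section lvl

variable {O : Set (V n)} {L₁ L₂ : ℝ} {l : V n → ℝ}

theorem jb_linx (hO : IsOpen O) (hl : Lb O L₁ L₂ l) (L : VV n →L[ℝ] V n)
    (hL : ∀ k, ∃ (c : ℝ) (i : Fin n), |c| ≤ 1 ∧ L (ex k) = c • Pi.single i 1)
    (hz : L z ∈ O) : JB ex w1 (fun z => l (L z)) L₁ L₂ z := by
  have ho : IsOpen {y : VV n | L y ∈ O} := hO.preimage L.continuous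
  have hcd : ContDiffAt ℝ 2 l (L z) := ((hl.sm _ hz).contDiffAt (hO.mem_nhds hz)).of_le
    (WithTop.coe_le_coe.2 le_top)
  have fd : ∀ (f : V n → ℝ) (y : VV n) (w : VV n), DifferentiableAt ℝ f (L y) →
      fderiv ℝ (fun z => f (L z)) y w = fderiv ℝ f (L y) (L w) := by
    intro f y w hf
    have h : HasFDerivAt (fun z : VV n => f (L z)) ((fderiv ℝ f (L y)).comp L) y :=
      HasFDerivAt.comp y hf.hasFDerivAt L.hasFDerivAt
    rw [h.fderiv]; rfl
  refine ⟨hcd.comp z L.contDiff.contDiffAt, fun k => ?_, fun k k' => ?_⟩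
  · obtain ⟨c, i, hc, e⟩ := hL k
    rw [fd l z _ (df_of hO hl.sm hz), e, map_smul, smul_eq_mul, abs_mul, w1, mul_one]
    have h1 := hl.d1 _ hz i
    have h2 : 0 ≤ L₁ := (abs_nonneg _).trans h1
    calc |c| * |fderiv ℝ l (L z) (Pi.single i 1)| ≤ 1 * L₁ :=
          mul_le_mul hc h1 (abs_nonneg _) zero_le_one
      _ = L₁ := one_mul _
  · obtain ⟨c, i, hc, e⟩ := hL k
    obtain ⟨c', i', hc', e'⟩ := hL k'
    have h1 : (fun y => fderiv ℝ (fun z => l (L z)) y (ex k)) =ᶠ[𝓝 z]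
        fun y => (fun x => c * pd i l x) (L y) := by
      filter_upwards [ho.mem_nhds hz] with y hy
      rw [fd l y _ (df_of hO hl.sm hy), e, map_smul, smul_eq_mul]
      rfl
    have hd : DifferentiableAt ℝ (pd i l) (L z) := df_of hO (sm_pd hO hl.sm i) hz
    rw [h1.fderiv_eq, fd _ z _ (hd.const_mul c), fderiv_const_mul hd, e']
    rw [_root_.smul_apply, map_smul, smul_eq_mul, smul_eq_mul, ← mul_assoc, abs_mul, abs_mul,
      w1, w1, mul_one, mul_one]
    have h1 := hl.d2 _ hz i' i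
    have h2 : 0 ≤ L₂ := (abs_nonneg _).trans h1
    have h3 : |c| * |c'| ≤ 1 := by
      calc |c| * |c'| ≤ 1 * 1 := mul_le_mul hc hc' (abs_nonneg _) zero_le_one
        _ = 1 := one_mul _
    calc |c| * |c'| * |fderiv ℝ (pd i l) (L z) (Pi.single i' 1)| ≤ 1 * L₂ :=
          mul_le_mul h3 h1 (abs_nonneg _) zero_le_one
      _ = L₂ := one_mul _

theorem jb_fstx (hO : IsOpen O) (hl : Lb O L₁ L₂ l) (hz : z.1 ∈ O) :
    JB ex w1 (fun z => l z.1) L₁ L₂ z := by
  refine jb_linx hO hl (ContinuousLinearMap.fst ℝ (V n) (V n)) (fun k => ?_) hz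
  rcases k with i | i
  · exact ⟨1, i, by simp, by simp [ex]⟩
  · exact ⟨0, i, by simp, by simp [ex]⟩

theorem jb_sndx (hO : IsOpen O) (hl : Lb O L₁ L₂ l) (hz : z.2 ∈ O) :
    JB ex w1 (fun z => l z.2) L₁ L₂ z := by
  refine jb_linx hO hl (ContinuousLinearMap.snd ℝ (V n) (V n)) (fun k => ?_) hz
  rcases k with i | i
  · exact ⟨0, i, by simp, by simp [ex]⟩
  · exact ⟨1, i, by simp, by simp [ex]⟩

end lvl

theorem ww_le (h : PkOk q d) (T : Th q) {x : V n} (hx : x ∈ Gp q d) (i : Fin n) :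
    |ww n q x i| ≤ 2 := by
  have h1 := (Gp_sq h T hx).2
  have h2 := T.σ1
  have h3 : ww n q x i ^ 2 ≤ HY.sq (ww n q x) :=
    Finset.single_le_sum (f := fun i => ww n q x i ^ 2) (fun i _ => sq_nonneg _)
      (Finset.mem_univ i)
  refine abs_le_of_sq_le_sq ?_ (by norm_num)
  linarith

theorem lb_Gp (h : PkOk q d) (T : Th q) : Lb (Gp q d) 2 1 d.l where
  sm := h.lev.sm.contDiffOn
  d1 x hx k := by
    rw [Gp_pd h T hx]
    exact ww_le h T hx k
  d2 x hx k j := by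
    rw [Gp_pd2 h T hx]
    have h1 := T.σ1
    have h2 := T.σ0
    have h3 := T.R1
    have h4 : q.σ / q.R ≤ 1 := by rw [div_le_one (by linarith)]; linarith
    have h5 : 0 ≤ q.σ / q.R := by have := T.R0; positivity
    split_ifs
    · rwa [abs_of_nonneg h5]
    · simp

/-- Both points and the midpoint are at explicit levels. -/
structure Gt (q : Cst) (d : Pk n) (z : VV n) : Prop where
  x : z.1 ∈ Gp q d
  y : z.2 ∈ Gp q d
  p : H464.Cu.mid z ∈ Gp q d

theorem jb_u0 (h : PkOk q d) (T : Th q) (hx : z.1 ∈ Gp q d) (hy : z.2 ∈ Gp q d) :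
    JB ex w1 d.u0 4 2 z := by
  have h1 := (jb_fstx (isOpen_Gp h) (lb_Gp h T) hx).add (jb_sndx (isOpen_Gp h) (lb_Gp h T) hy)
  norm_num at h1
  exact h1

theorem fd_u0 (h : PkOk q d) (v : VV n) :
    fderiv ℝ d.u0 z v = fderiv ℝ d.l z.1 v.1 + fderiv ℝ d.l z.2 v.2 := by
  have hl : Differentiable ℝ d.l := h.lev.sm.differentiable (by simp)
  have h1 : DifferentiableAt ℝ (fun z : VV n => d.l z.1) z := by
    have := (hl z.1)
    exact this.comp z differentiableAt_fst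
  have h2 : DifferentiableAt ℝ (fun z : VV n => d.l z.2) z := by
    have := (hl z.2)
    exact this.comp z differentiableAt_snd
  have e : d.u0 = fun z : VV n => d.l z.1 + d.l z.2 := rfl
  rw [e, fderiv_fun_add h1 h2, _root_.add_apply]
  have e1 := fd_fst (z := z) (hl z.1) v.1 v.2
  have e2 := fd_snd (z := z) (hl z.2) v.1 v.2
  rw [Prod.mk.eta] at e1 e2
  rw [e1, e2]

/-! ## The distance -/

/-- The component of the difference. -/
def dfL (n : ℕ) (i : Fin n) : VV n →L[ℝ] ℝ :=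
  (ContinuousLinearMap.proj (R := ℝ) (φ := fun _ : Fin n => ℝ) i).comp
    (ContinuousLinearMap.fst ℝ (V n) (V n) - ContinuousLinearMap.snd ℝ (V n) (V n))

theorem dfL_apply (i : Fin n) (z : VV n) : dfL n i z = z.1 i - z.2 i := rfl

theorem qq_hd (z : VV n) : HasFDerivAt (qq (n := n)) (∑ i, (2 * dfL n i z) • dfL n i) z := by
  have e : (qq (n := n)) = fun z => ∑ i, dfL n i z ^ 2 := by
    funext z
    exact qq_eq z
  rw [e]
  refine HasFDerivAt.fun_sum fun i _ => ?_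
  have h1 := ((dfL n i).hasFDerivAt (x := z)).pow 2
  refine h1.congr_fderiv ?_
  norm_num

theorem fd_qq (z v : VV n) : fderiv ℝ qq z v = ∑ i, 2 * dfL n i z * dfL n i v := by
  rw [(qq_hd z).fderiv]
  simp only [_root_.sum_apply, _root_.smul_apply, smul_eq_mul]

theorem fd2_qq (z v w : VV n) :
    fderiv ℝ (fun y => fderiv ℝ qq y v) z w = ∑ i, 2 * dfL n i w * dfL n i v := by
  have e : (fun y => fderiv ℝ qq y v) = fun y => ∑ i, 2 * dfL n i y * dfL n i v :=
    funext fun y => fd_qq y v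
  rw [e]
  have h1 : HasFDerivAt (fun y => ∑ i, 2 * dfL n i y * dfL n i v)
      (∑ i, (2 * dfL n i v) • dfL n i) z := by
    refine HasFDerivAt.fun_sum fun i _ => ?_
    have h1 := ((dfL n i).hasFDerivAt (x := z)).const_mul (2 * dfL n i v)
    refine h1.congr_of_eventuallyEq (Eventually.of_forall fun y => ?_)
    ring
  rw [h1.fderiv]
  simp only [_root_.sum_apply, _root_.smul_apply, smul_eq_mul]
  exact Finset.sum_congr rfl fun i _ => by ring

theorem dfL_inl (i j : Fin n) : dfL n i (ex (Sum.inl j)) = if i = j then 1 else 0 := by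
  rw [dfL_apply]
  simp [ex, Pi.single_apply]

theorem dfL_inr (i j : Fin n) : dfL n i (ex (Sum.inr j)) = if i = j then -1 else 0 := by
  rw [dfL_apply]
  simp only [ex, Pi.single_apply, Pi.zero_apply]
  split_ifs <;> simp

theorem qq_x (z : VV n) (j : Fin n) :
    fderiv ℝ qq z (ex (Sum.inl j)) = 2 * (z.1 j - z.2 j) := by
  rw [fd_qq]
  simp only [dfL_inl, mul_ite, mul_one, mul_zero, Finset.sum_ite_eq', Finset.mem_univ, if_true]
  rfl

theorem qq_y (z : VV n) (j : Fin n) :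
    fderiv ℝ qq z (ex (Sum.inr j)) = -(2 * (z.1 j - z.2 j)) := by
  rw [fd_qq]
  simp only [dfL_inr, mul_ite, mul_neg, mul_one, mul_zero, Finset.sum_ite_eq', Finset.mem_univ,
    if_true]
  rfl

theorem dif_le_sqrt (z : VV n) (j : Fin n) : |z.1 j - z.2 j| ≤ √(qq z) := by
  refine Real.abs_le_sqrt ?_
  rw [qq_eq]
  exact Finset.single_le_sum (f := fun i => (z.1 i - z.2 i) ^ 2) (fun i _ => sq_nonneg _)
    (Finset.mem_univ j)

theorem jb_qq (z : VV n) : JB ex w1 qq (2 * √(qq z)) 2 z where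
  sm := (qq_sm.contDiffAt).of_le (WithTop.coe_le_coe.2 le_top)
  d1 k := by
    have h1 := fun j => dif_le_sqrt z j
    rcases k with j | j
    · rw [qq_x, abs_mul, abs_of_pos (by norm_num : (0 : ℝ) < 2), w1, mul_one]
      linarith [h1 j]
    · rw [qq_y, abs_neg, abs_mul, abs_of_pos (by norm_num : (0 : ℝ) < 2), w1, mul_one]
      linarith [h1 j]
  d2 k k' := by
    rw [fd2_qq]
    have e : |(∑ i, 2 * dfL n i (ex k') * dfL n i (ex k))| ≤ 2 := by
      rcases k with j | j <;> rcases k' with j' | j' <;>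
      simp only [dfL_inl, dfL_inr, mul_ite, mul_neg, mul_one, mul_zero,
        Finset.sum_ite_eq', Finset.mem_univ, if_true] <;>
      split_ifs <;> norm_num
    simpa [w1] using e

/-! ## The stiff part and the weight -/

theorem qq_lt {ρ : ℝ} (hρ : √(qq z) < ρ) : qq z < ρ ^ 2 := by
  have h1 := Real.sq_sqrt (qq_nonneg z)
  have h2 := Real.sqrt_nonneg (qq z)
  rw [← h1]
  exact pow_lt_pow_left₀ hρ h2 (by norm_num)

theorem jb_S (he : 0 < q.e₁) (h1 : √(qq z) < 1) :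
    JB ex w1 (fun z => prS q.e₁ (qq z)) (8 * √(qq z)) 40 z := by
  have hr := Real.sqrt_nonneg (qq z)
  have hs := Real.sq_sqrt (qq_nonneg z)
  have h2 : qq z < 1 := by have := qq_lt h1; linarith
  have P := pn_ok he (qq_nonneg z) h2
  have h3 := (jb_qq z).comp (φ := prS q.e₁) (φ' := prS₁ q.e₁) (c := prS₂ q.e₁ (qq z))
    (A := 4) (B := 8) ((prS_sm he).contDiffAt.of_le (WithTop.coe_le_coe.2 le_top))
    (Eventually.of_forall fun t => prS_d1 he t) (prS_d2 he _)
    (by rw [abs_of_nonneg (by linarith [P.l1])]; exact P.b1)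
    (by rw [abs_of_nonneg P.l2]; exact P.h2)
  refine h3.mono w1_nn (by linarith) ?_
  nlinarith

theorem jb_E0 (h : PkOk q d) (T : Th q) (hx : z.1 ∈ Gp q d) (hy : z.2 ∈ Gp q d) :
    JB ex w1 (fun z => Real.exp (d.u0 z)) (4 * Real.exp (d.u0 z)) (18 * Real.exp (d.u0 z)) z := by
  refine (jb_u0 h T hx hy).exp.mono w1_nn (by linarith) (by linarith)

theorem jb_G0 (h : PkOk q d) (T : Th q) (he : 0 < q.e₁) (hx : z.1 ∈ Gp q d) (hy : z.2 ∈ Gp q d)
    (h1 : √(qq z) < 1) :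
    JB ex w1 (d.G0 q) (40 * (Real.exp (d.u0 z) * √(qq z))) (248 * Real.exp (d.u0 z)) z := by
  have hr := Real.sqrt_nonneg (qq z)
  have hs := Real.sq_sqrt (qq_nonneg z)
  have h2 : qq z < 1 := by have := qq_lt h1; linarith
  have P := pn_ok he (qq_nonneg z) h2
  have hE := Real.exp_pos (d.u0 z)
  have hq0 := qq_nonneg z
  have hS0 : 0 ≤ prS q.e₁ (qq z) := by linarith [P.lo]
  have h3 := (jb_E0 h T hx hy).mul (jb_S he h1) (F := Real.exp (d.u0 z)) (H := 8 * qq z)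
    (by rw [abs_of_pos hE]) (by rw [abs_of_nonneg hS0]; exact P.hi)
  have e : qq z ≤ √(qq z) := by nlinarith
  refine h3.mono w1_nn ?_ ?_
  · nlinarith [mul_le_mul_of_nonneg_left e hE.le]
  · nlinarith [mul_le_mul_of_nonneg_left h1.le hE.le, mul_le_mul_of_nonneg_left h2.le hE.le]

theorem jb_W0 (h : PkOk q d) (T : Th q) (he : 0 < q.e₁) (hx : z.1 ∈ Gp q d) (hy : z.2 ∈ Gp q d)
    (h1 : √(qq z) < 1) :
    JB ex w1 (d.W0 q) (4 * deriv d.Φ (d.u0 z) + 40 * (Real.exp (d.u0 z) * √(qq z)))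
      (16 * deriv (deriv d.Φ) (d.u0 z) + 2 * deriv d.Φ (d.u0 z) + 248 * Real.exp (d.u0 z)) z := by
  have hN := N_pos h T (d.u0 z)
  have hK := K_pos h (d.u0 z)
  have h2 := (jb_u0 h T hx hy).comp (φ := d.Φ) (φ' := deriv d.Φ)
    (c := deriv (deriv d.Φ) (d.u0 z)) (A := deriv d.Φ (d.u0 z))
    (B := deriv (deriv d.Φ) (d.u0 z)) (h.Φs.contDiffAt.of_le (WithTop.coe_le_coe.2 le_top))
    (Eventually.of_forall fun t => ((h.Φs.differentiable (by simp)) t).hasDerivAt)
    ((h.Φ's.differentiable (by simp)) _).hasDerivAt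
    (by rw [abs_of_pos hN]) (by rw [abs_of_pos hK])
  exact (h2.add (jb_G0 h T he hx hy h1)).mono w1_nn (by linarith) (by linarith)

/-- The first derivative of `NG`. -/
theorem NG_fd (h : PkOk q d) (T : Th q) (he : 0 < q.e₁) (hx : z.1 ∈ Gp q d) (hy : z.2 ∈ Gp q d)
    (h1 : √(qq z) < 1) (k : Fin n ⊕ Fin n) :
    |fderiv ℝ (d.NG q) z (ex k)| ≤
      4 * deriv (deriv d.Φ) (d.u0 z) + 40 * (Real.exp (d.u0 z) * √(qq z)) := by
  have hK := K_pos h (d.u0 z)
  have j0 := jb_u0 h T hx hy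
  have j1 := jb_G0 h T he hx hy h1
  have d0 := (ev_diff j0.sm).self_of_nhds
  have d1 := (ev_diff j1.sm).self_of_nhds
  have hd : HasDerivAt (deriv d.Φ) (deriv (deriv d.Φ) (d.u0 z)) (d.u0 z) :=
    ((h.Φ's.differentiable (by simp)) _).hasDerivAt
  have e : d.NG q = fun z => deriv d.Φ (d.u0 z) + d.G0 q z := rfl
  have d2 : DifferentiableAt ℝ (fun z => deriv d.Φ (d.u0 z)) z :=
    (hd.comp_hasFDerivAt z d0.hasFDerivAt).differentiableAt
  rw [e, fderiv_fun_add d2 d1, _root_.add_apply, fd_comp d0 hd]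
  refine (abs_add_le _ _).trans ?_
  rw [abs_mul, abs_of_pos hK]
  have a1 := j0.d1 k
  have a2 := j1.d1 k
  rw [w1, mul_one] at a1 a2
  nlinarith [mul_le_mul_of_nonneg_left a1 hK.le]

/-- The exact gradient of the flat weight. -/
theorem W0_fd (h : PkOk q d) (he : 0 < q.e₁) (v : VV n) :
    fderiv ℝ (d.W0 q) z v = d.NG q z * fderiv ℝ d.u0 z v +
      Real.exp (d.u0 z) * prS₁ q.e₁ (qq z) * fderiv ℝ qq z v := by
  have d0 : DifferentiableAt ℝ d.u0 z := (h.u0_sm.differentiable (by simp)) z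
  have dq : DifferentiableAt ℝ (qq (n := n)) z := (qq_hd z).differentiableAt
  have hΦ : HasDerivAt d.Φ (deriv d.Φ (d.u0 z)) (d.u0 z) :=
    ((h.Φs.differentiable (by simp)) _).hasDerivAt
  have hE : HasDerivAt Real.exp (Real.exp (d.u0 z)) (d.u0 z) := Real.hasDerivAt_exp _
  have hS := prS_d1 he (qq z)
  have d1 : DifferentiableAt ℝ (fun z => d.Φ (d.u0 z)) z :=
    (hΦ.comp_hasFDerivAt z d0.hasFDerivAt).differentiableAt
  have d2 : DifferentiableAt ℝ (fun z => Real.exp (d.u0 z)) z :=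
    (hE.comp_hasFDerivAt z d0.hasFDerivAt).differentiableAt
  have d3 : DifferentiableAt ℝ (fun z : VV n => prS q.e₁ (qq z)) z :=
    (hS.comp_hasFDerivAt z dq.hasFDerivAt).differentiableAt
  have e : d.W0 q = fun z => d.Φ (d.u0 z) + Real.exp (d.u0 z) * prS q.e₁ (qq z) := rfl
  rw [e, fderiv_fun_add d1 (d2.fun_mul d3), fderiv_fun_mul d2 d3]
  simp only [_root_.add_apply, _root_.smul_apply, smul_eq_mul]
  rw [fd_comp d0 hΦ, fd_comp d0 hE, fd_comp dq hS]
  unfold Pk.NG Pk.G0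
  ring

theorem u0_x (h : PkOk q d) (T : Th q) (hx : z.1 ∈ Gp q d) (j : Fin n) :
    fderiv ℝ d.u0 z (ex (Sum.inl j)) = ww n q z.1 j := by
  have e := Gp_pd h T hx j
  unfold LR.pd at e
  rw [fd_u0 h, ex]
  simp only [map_zero, add_zero]
  exact e

theorem u0_y (h : PkOk q d) (T : Th q) (hy : z.2 ∈ Gp q d) (j : Fin n) :
    fderiv ℝ d.u0 z (ex (Sum.inr j)) = ww n q z.2 j := by
  have e := Gp_pd h T hy j
  unfold LR.pd at e
  rw [fd_u0 h, ex]
  simp only [map_zero, zero_add]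
  exact e

theorem W0_x (h : PkOk q d) (T : Th q) (he : 0 < q.e₁) (hx : z.1 ∈ Gp q d) (j : Fin n) :
    fderiv ℝ (d.W0 q) z (ex (Sum.inl j)) = d.NG q z * ww n q z.1 j +
      2 * (Real.exp (d.u0 z) * prS₁ q.e₁ (qq z)) * (z.1 j - z.2 j) := by
  rw [W0_fd h he, u0_x h T hx, qq_x]
  ring

theorem W0_y (h : PkOk q d) (T : Th q) (he : 0 < q.e₁) (hy : z.2 ∈ Gp q d) (j : Fin n) :
    fderiv ℝ (d.W0 q) z (ex (Sum.inr j)) = d.NG q z * ww n q z.2 j -
      2 * (Real.exp (d.u0 z) * prS₁ q.e₁ (qq z)) * (z.1 j - z.2 j) := by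
  rw [W0_fd h he, u0_y h T hy, qq_y]
  ring

end Vale.Agent.P088.R2.H680.C
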