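import Vale.Agent.P088.R2.H680.C.TubeB
import Vale.Agent.P088.R2.H205.C.SpecW

/-!
# P088, stage 3: the tubes of region I, the numbers

Near the tube `|W0_x| ≤ 4 rT NG` the slope is comparable with the stiffness and `ν · W0_y ~ NG`.
-/

open Set Filter
open scoped ContDiff Topology

noncomputable section

namespace Vale.Agent.P088.R2.H680.C

open Vale.Agent.P088.LR Vale.Agent.P088.HY
open Vale.Agent.P088.R2.H31.EP Vale.Agent.P088.R2.H238.C Vale.Agent.P088.R2.H932.EP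
open Vale.Agent.P088.R2.H606.EP Vale.Agent.P088.R2.H475
open Vale.Agent.P088.R2.H205.CP (nuL)
open Vale.Agent.P088.R2.H464.Cu (mid)

variable {n : ℕ} {q : Cst} {d : Pk n} {z : VV n}

/-! ## Vectors -/

theorem vec {w e v : V n} {G A τ : ℝ} (hG : 0 < G) (hv : ∀ i, v i = G * w i + A * e i)
    (h1 : 999 / 1000 ≤ √(HY.sq w)) (h2 : √(HY.sq w) ≤ 1001 / 1000) (h3 : √(HY.sq v) ≤ τ * G) :
    (999 / 1000 - τ) * G ≤ |A| * √(HY.sq e) ∧ |A| * √(HY.sq e) ≤ (1001 / 1000 + τ) * G := by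
  have e1 : G • w = v + (-A) • e := by
    funext i
    simp only [Pi.smul_apply, Pi.add_apply, smul_eq_mul]
    rw [hv i]
    ring
  have e2 : A • e = v + (-G) • w := by
    funext i
    simp only [Pi.smul_apply, Pi.add_apply, smul_eq_mul]
    rw [hv i]
    ring
  have k1 := en_add v ((-A) • e)
  have k2 := en_add v ((-G) • w)
  rw [← e1, en_smul, en_smul, abs_neg, abs_of_pos hG] at k1
  rw [← e2, en_smul, en_smul, abs_neg, abs_of_pos hG] at k2
  have m1 := mul_le_mul_of_nonneg_left h1 hG.le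
  have m2 := mul_le_mul_of_nonneg_left h2 hG.le
  constructor <;> linarith

theorem ww_len (h : PkOk q d) (T : Th q) {x : V n} (hx : x ∈ Gp q d) :
    999 / 1000 ≤ √(HY.sq (ww n q x)) ∧ √(HY.sq (ww n q x)) ≤ 1001 / 1000 ∧
      999 / 1000 ≤ HY.sq (ww n q x) ∧ HY.sq (ww n q x) ≤ 1001 / 1000 := by
  obtain ⟨h1, h2⟩ := Gp_sq h T hx
  have h3 := T.σ1
  have h4 : 9995 / 10000 ≤ HY.sq (ww n q x) := by linarith
  have h5 : HY.sq (ww n q x) ≤ 1001 / 1000 := by linarith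
  refine ⟨Real.le_sqrt_of_sq_le (by linarith), ?_, by linarith, h5⟩
  refine (Real.sqrt_le_left (by norm_num)).2 (by linarith)

theorem ww_mid (z : VV n) (i : Fin n) :
    ww n q (mid z) i = (ww n q z.1 i + ww n q z.2 i) / 2 := by
  have e : mid z i = (z.1 i + z.2 i) / 2 := by
    simp only [mid, Pi.smul_apply, Pi.add_apply, smul_eq_mul]
    ring
  simp only [ww_apply, e]
  ring

/-! ## The numbers on the tubes -/

/-- `|x - y| ~ c₀`, both points at explicit levels. -/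
structure Tz (q : Cst) (d : Pk n) (z : VV n) : Prop extends Gt q d z where
  r1 : q.c₀ / 4 ≤ √(qq z)
  r2 : √(qq z) ≤ 21 / 10 * q.c₀

/-- The constants. -/
structure Tc (q : Cst) : Prop where
  T : Th q
  e₁ : 0 < q.e₁
  c : q.c₀ ≤ 1 / 1000
  r0 : 0 < q.rT
  r1 : q.rT ≤ 1 / 200

/-- The numbers on the tubes. -/
structure Tn (q : Cst) (d : Pk n) (z : VV n) : Prop where
  G1 : deriv d.Φ (d.u0 z) ≤ d.NG q z
  G2 : d.NG q z ≤ 102 / 100 * deriv d.Φ (d.u0 z)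
  t2 : Real.exp (d.u0 z) * √(qq z) ≤ 105 / 100 * deriv d.Φ (d.u0 z)
  t1 : 95 / 100 * deriv d.Φ (d.u0 z) ≤ Real.exp (d.u0 z) * √(qq z)
  E : q.c₀ * Real.exp (d.u0 z) ≤ 42 / 10 * deriv d.Φ (d.u0 z)

theorem sc {E r S₁ S : ℝ} (hE : 0 < E) (hr : 0 ≤ r) (hr2 : r ≤ 21 / 10000) (l1 : 1 / 2 ≤ S₁)
    (h1 : S₁ ≤ 1 / 2 + 16 * r ^ 2) (hi : S ≤ 8 * r ^ 2) :
    E * r ≤ 2 * (E * S₁) * r ∧ 2 * (E * S₁) * r ≤ 1001 / 1000 * (E * r) ∧
      E * S ≤ 17 / 1000 * (E * r) := by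
  have hEr : 0 ≤ E * r := by positivity
  have hq : r ^ 2 ≤ 21 / 10000 * r := by
    rw [_root_.sq]
    exact mul_le_mul_of_nonneg_right hr2 hr
  have h5 : S₁ ≤ 1001 / 2000 := by nlinarith
  have h6 : S ≤ 17 / 1000 * r := by linarith
  have m1 := mul_le_mul_of_nonneg_left l1 hEr
  have m2 := mul_le_mul_of_nonneg_left h5 hEr
  have m3 := mul_le_mul_of_nonneg_left h6 hE.le
  refine ⟨?_, ?_, ?_⟩
  · linarith
  · linarith
  · linarith

theorem tn (h : PkOk q d) (C : Tc q) (t : Tz q d z) {w v : V n} {A : ℝ}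
    (hA : |A| = 2 * (Real.exp (d.u0 z) * prS₁ q.e₁ (qq z)))
    (hv : ∀ i, v i = d.NG q z * w i + A * (z.1 i - z.2 i))
    (h1 : 999 / 1000 ≤ √(HY.sq w)) (h2 : √(HY.sq w) ≤ 1001 / 1000)
    (h3 : √(HY.sq v) ≤ 4 * q.rT * d.NG q z) : Tn q d z := by
  have T := C.T
  have hN := N_pos h T (d.u0 z)
  have hE := Real.exp_pos (d.u0 z)
  have hc := C.c
  have hc0 := T.c0
  have hr := Real.sqrt_nonneg (qq z)
  have hq0 := qq_nonneg z
  have hs := Real.sq_sqrt (qq_nonneg z)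
  have hr2 := t.r2
  have hr1 := t.r1
  have hlt : √(qq z) < 1 := by linarith
  have hq1 : qq z < 1 := by have := qq_lt hlt; linarith
  have P := pn_ok C.e₁ hq0 hq1
  have hS : 0 ≤ prS q.e₁ (qq z) := by linarith [P.lo]
  have eG : d.NG q z = deriv d.Φ (d.u0 z) + Real.exp (d.u0 z) * prS q.e₁ (qq z) := rfl
  have hG0 : 0 ≤ Real.exp (d.u0 z) * prS q.e₁ (qq z) := mul_nonneg hE.le hS
  have hG : 0 < d.NG q z := by rw [eG]; linarith
  have hrT := C.r1
  have h3' : √(HY.sq v) ≤ 1 / 50 * d.NG q z :=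
    h3.trans (mul_le_mul_of_nonneg_right (by linarith) hG.le)
  obtain ⟨k1, k2⟩ := vec (e := fun i => z.1 i - z.2 i) hG hv h1 h2 h3'
  have er : √(HY.sq fun i => z.1 i - z.2 i) = √(qq z) := rfl
  rw [er, hA] at k1 k2
  -- the number `t = E0 r`
  obtain ⟨t', ht'⟩ : ∃ t', t' = Real.exp (d.u0 z) * √(qq z) := ⟨_, rfl⟩
  have ht0 : 0 ≤ t' := by rw [ht']; positivity
  obtain ⟨m1, m2, m3⟩ := sc (S₁ := prS₁ q.e₁ (qq z)) (S := prS q.e₁ (qq z)) hE hr (by linarith)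
    P.l1 (by rw [hs]; exact P.h1) (by rw [hs]; exact P.hi)
  rw [← ht'] at m1 m2 m3
  have g1 : t' ≤ 103 / 100 * d.NG q z := by linarith
  have g2 : 97 / 100 * d.NG q z ≤ t' := by linarith
  have g3 : d.NG q z ≤ 102 / 100 * deriv d.Φ (d.u0 z) := by
    rw [eG] at g1 ⊢
    linarith
  have g4 : deriv d.Φ (d.u0 z) ≤ d.NG q z := by rw [eG]; linarith
  have g5 : t' ≤ 105 / 100 * deriv d.Φ (d.u0 z) := by
    rw [eG] at g1
    linarith
  refine ⟨g4, g3, by rw [← ht']; exact g5, by rw [← ht']; linarith, ?_⟩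
  have h6 : q.c₀ * Real.exp (d.u0 z) * (1 / 4) ≤ t' := by
    rw [ht']
    have := mul_le_mul_of_nonneg_left hr1 hE.le
    linarith
  linarith

/-- The numbers from the tube `|W0_x| ≤ 4 rT NG`. -/
theorem tn_x (h : PkOk q d) (C : Tc q) (t : Tz q d z)
    (h3 : ∑ i, dx i (d.W0 q) z ^ 2 ≤ (4 * q.rT * d.NG q z) ^ 2) : Tn q d z := by
  obtain ⟨a1, a2, -, -⟩ := ww_len h C.T t.x
  have hE := Real.exp_pos (d.u0 z)
  have hr2 := t.r2
  have hc := C.c
  have hlt : √(qq z) < 1 := by linarith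
  have hq1 : qq z < 1 := by have := qq_lt hlt; linarith
  have P := pn_ok C.e₁ (qq_nonneg z) hq1
  have hG : 0 ≤ d.NG q z := by
    have := N_pos h C.T (d.u0 z)
    have hS : 0 ≤ prS q.e₁ (qq z) := by linarith [P.lo, qq_nonneg z]
    have := mul_nonneg hE.le hS
    unfold Pk.NG Pk.G0
    linarith
  refine tn h C t (w := ww n q z.1) (v := fun i => dx i (d.W0 q) z)
    (A := 2 * (Real.exp (d.u0 z) * prS₁ q.e₁ (qq z)))
    (abs_of_nonneg (by have := P.l1; positivity)) (fun i => ?_) a1 a2 ?_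
  · exact W0_x h C.T C.e₁ t.x i
  · exact en_le_of_sq (by have := C.r0; positivity) h3

/-- The numbers from the tube `|W0_y| ≤ 4 rT NG`. -/
theorem tn_y (h : PkOk q d) (C : Tc q) (t : Tz q d z)
    (h3 : ∑ i, dy i (d.W0 q) z ^ 2 ≤ (4 * q.rT * d.NG q z) ^ 2) : Tn q d z := by
  obtain ⟨a1, a2, -, -⟩ := ww_len h C.T t.y
  have hE := Real.exp_pos (d.u0 z)
  have hr2 := t.r2
  have hc := C.c
  have hlt : √(qq z) < 1 := by linarith
  have hq1 : qq z < 1 := by have := qq_lt hlt; linarith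
  have P := pn_ok C.e₁ (qq_nonneg z) hq1
  have hG : 0 ≤ d.NG q z := by
    have := N_pos h C.T (d.u0 z)
    have hS : 0 ≤ prS q.e₁ (qq z) := by linarith [P.lo, qq_nonneg z]
    have := mul_nonneg hE.le hS
    unfold Pk.NG Pk.G0
    linarith
  refine tn h C t (w := ww n q z.2) (v := fun i => dy i (d.W0 q) z)
    (A := -(2 * (Real.exp (d.u0 z) * prS₁ q.e₁ (qq z))))
    (by rw [abs_neg, abs_of_nonneg (by have := P.l1; positivity)]) (fun i => ?_) a1 a2 ?_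
  · refine (W0_y h C.T C.e₁ t.y i).trans ?_
    ring
  · exact en_le_of_sq (by have := C.r0; positivity) h3

/-! ## The direction -/

theorem nuL_eq (h : PkOk q d) (T : Th q) (hp : mid z ∈ Gp q d) (i : Fin n) :
    nuL d i z = ww n q (mid z) i / 2 := by
  have e := Gp_pd h T hp i
  unfold LR.pd at e
  unfold nuL
  rw [e]

theorem nuL_abs (h : PkOk q d) (T : Th q) (hp : mid z ∈ Gp q d) (i : Fin n) :
    |nuL d i z| ≤ 1 := by
  rw [nuL_eq h T hp, abs_div, abs_of_pos (by norm_num : (0 : ℝ) < 2)]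
  have := ww_le h T hp i
  linarith

theorem nuL_sq (h : PkOk q d) (T : Th q) (hp : mid z ∈ Gp q d) : ∑ i, nuL d i z ^ 2 ≤ 1 := by
  obtain ⟨-, -, -, a4⟩ := ww_len h T hp
  have e : ∑ i, nuL d i z ^ 2 = HY.sq (ww n q (mid z)) / 4 := by
    unfold HY.sq
    rw [Finset.sum_div]
    exact Finset.sum_congr rfl fun i _ => by rw [nuL_eq h T hp]; ring
  rw [e]
  linarith

/-- `ν · W0_y` from `W0_x` small, and the mirror image. -/
theorem nu_dot (h : PkOk q d) (T : Th q) (hp : mid z ∈ Gp q d) {a b : V n} {G τ : ℝ} (hG : 0 < G)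
    (hτ : τ ≤ 1 / 50) (hab : ∀ i, a i = 2 * G * ww n q (mid z) i - b i)
    (h3 : ∑ i, b i ^ 2 ≤ (τ * G) ^ 2) (hτ0 : 0 ≤ τ) :
    98 / 100 * G ≤ ∑ i, nuL d i z * a i ∧ ∑ i, nuL d i z * a i ≤ 102 / 100 * G := by
  obtain ⟨a1, a2, a3, a4⟩ := ww_len h T hp
  have e : ∑ i, nuL d i z * a i =
      G * HY.sq (ww n q (mid z)) - 1 / 2 * ∑ i, ww n q (mid z) i * b i := by
    unfold HY.sq
    rw [Finset.mul_sum, Finset.mul_sum, ← Finset.sum_sub_distrib]
    refine Finset.sum_congr rfl fun i _ => ?_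
    rw [nuL_eq h T hp, hab i]
    ring
  have h4 := abs_dot_le (ww n q (mid z)) b
  have h5 : √(HY.sq b) ≤ τ * G := en_le_of_sq (by positivity) h3
  have h6 : √(HY.sq (ww n q (mid z))) * √(HY.sq b) ≤ 1001 / 1000 * (1 / 50 * G) :=
    mul_le_mul a2 (h5.trans (mul_le_mul_of_nonneg_right hτ hG.le)) (Real.sqrt_nonneg _)
      (by norm_num)
  have h7 := abs_le.1 (h4.trans h6)
  rw [e]
  have h8 := mul_le_mul_of_nonneg_left a3 hG.le
  have h9 := mul_le_mul_of_nonneg_left a4 hG.le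
  constructor <;> linarith [h7.1, h7.2]

end Vale.Agent.P088.R2.H680.C
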