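import Vale.Agent.P088.R2.H680.C.TubeC
import Vale.Agent.P088.R2.H338.C.TubS
import Vale.Agent.P088.R2.H475.INF.Step

/-!
# P088, stage 3: the tubes of region I, derivatives of the direction and of the cuts
-/

open Set Filter
open scoped ContDiff Topology

noncomputable section

namespace Vale.Agent.P088.R2.H680.C

open Vale.Agent.P088.LR Vale.Agent.P088.HY
open Vale.Agent.P088.R2.H31.EP Vale.Agent.P088.R2.H238.C Vale.Agent.P088.R2.H932.EP
open Vale.Agent.P088.R2.H606.EP Vale.Agent.P088.R2.H475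
open Vale.Agent.P088.R2.H205.CP (nuL)
open Vale.Agent.P088.R2.H464.Cu (mid midL midL_apply)

variable {n : ℕ} {q : Cst} {d : Pk n} {z : VV n}

theorem sum_le {c : Fin n → ℝ} {a : ℝ} (h : ∀ i, |c i| ≤ a) : |∑ i, c i| ≤ n * a := by
  refine (Finset.abs_sum_le_sum_abs _ _).trans ?_
  refine (Finset.sum_le_sum fun i _ => h i).trans (le_of_eq ?_)
  simp

/-! ## The direction of the level -/

theorem nuL_sm (h : PkOk q d) (i : Fin n) : ContDiff ℝ ∞ (nuL d i) := by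
  have h1 : ContDiff ℝ ∞ (fun x => fderiv ℝ d.l x (Pi.single i 1)) :=
    (h.lev.sm.fderiv_right (m := ∞) (by norm_num)).clm_apply contDiff_const
  exact (h1.comp H464.Cu.contDiff_mid).div_const 2

theorem mid_ex (k : Fin n ⊕ Fin n) : ∃ j, mid (ex k : VV n) = (1 / 2 : ℝ) • Pi.single j 1 := by
  rcases k with j | j
  · exact ⟨j, by simp [mid, ex]⟩
  · exact ⟨j, by simp [mid, ex]⟩

theorem nuL_fd (h : PkOk q d) (T : Th q) (hp : mid z ∈ Gp q d) (i : Fin n)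
    (k : Fin n ⊕ Fin n) : |fderiv ℝ (nuL d i) z (ex k)| ≤ 1 := by
  obtain ⟨j, hj⟩ := mid_ex (n := n) k
  have h1 : ContDiff ℝ ∞ (LR.pd i d.l) :=
    (h.lev.sm.fderiv_right (m := ∞) (by norm_num)).clm_apply contDiff_const
  have h2 : HasFDerivAt (LR.pd i d.l) (fderiv ℝ (LR.pd i d.l) (mid z)) (mid z) :=
    ((h1.differentiable (by simp)) _).hasFDerivAt
  have h3 : HasFDerivAt (fun z : VV n => mid z) (midL n) z := (midL n).hasFDerivAt
  have h4 : HasFDerivAt (nuL d i) ((2⁻¹ : ℝ) • (fderiv ℝ (LR.pd i d.l) (mid z)).comp (midL n)) z := by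
    have h5 : HasFDerivAt (fun z : VV n => LR.pd i d.l (mid z))
        ((fderiv ℝ (LR.pd i d.l) (mid z)).comp (midL n)) z := HasFDerivAt.comp z h2 h3
    have h6 := h5.const_mul (2⁻¹ : ℝ)
    refine h6.congr_of_eventuallyEq (Eventually.of_forall fun y => ?_)
    unfold nuL LR.pd
    ring
  rw [h4.fderiv]
  simp only [_root_.smul_apply, ContinuousLinearMap.coe_comp, Function.comp_apply, smul_eq_mul,
    midL_apply, hj, map_smul]
  have h7 : fderiv ℝ (LR.pd i d.l) (mid z) (Pi.single j 1) = LR.pd j (LR.pd i d.l) (mid z) := rfl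
  rw [h7, Gp_pd2 h T hp]
  have h8 := T.σ1
  have h9 := T.σ0
  have h10 := T.R1
  have h11 : q.σ / q.R ≤ 1 := by rw [div_le_one (by linarith)]; linarith
  have h12 : 0 ≤ q.σ / q.R := by have := T.R0; positivity
  split_ifs
  · rw [abs_of_nonneg (by positivity)]
    linarith
  · simp

/-! ## The cuts -/

/-- The cut at `|∂_ι W0| ~ t NG`. -/
def tt (d : Pk n) (q : Cst) (ι : Fin n → Fin n ⊕ Fin n) (t : ℝ) (z : VV n) : ℝ :=
  (4 * (∑ i, fderiv ℝ (d.W0 q) z (ex (ι i)) ^ 2) / (t * d.NG q z) ^ 2 - 1) / 3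

theorem tx_eq (d : Pk n) (q : Cst) (t : ℝ) : d.tx q t = tt d q Sum.inl t := rfl
theorem ty_eq (d : Pk n) (q : Cst) (t : ℝ) : d.ty q t = tt d q Sum.inr t := rfl

/-- The first derivative of the cut. -/
theorem tt_fd {ι : Fin n → Fin n ⊕ Fin n} {t a b g : ℝ} (ht : 0 < t) (hG : 0 < d.NG q z)
    (hW : JB ex w1 (d.W0 q) a b z) (hg : DifferentiableAt ℝ (d.NG q) z)
    (hg1 : ∀ k, |fderiv ℝ (d.NG q) z (ex k)| ≤ g)
    (h3 : ∑ i, fderiv ℝ (d.W0 q) z (ex (ι i)) ^ 2 ≤ (t * d.NG q z) ^ 2) (k : Fin n ⊕ Fin n) :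
    |fderiv ℝ (tt d q ι t) z (ex k)| ≤ 8 / 3 * (n * b / t + g) / d.NG q z := by
  obtain ⟨G, hGe⟩ : ∃ G, G = d.NG q z := ⟨_, rfl⟩
  rw [← hGe] at hG h3 ⊢
  have df : ∀ i, HasFDerivAt (fun y => fderiv ℝ (d.W0 q) y (ex (ι i)))
      (fderiv ℝ (fun y => fderiv ℝ (d.W0 q) y (ex (ι i))) z) z := fun i =>
    (diff_fd hW.sm _).hasFDerivAt
  obtain ⟨S, hS⟩ : ∃ S : VV n → ℝ, S = fun y => ∑ i, fderiv ℝ (d.W0 q) y (ex (ι i)) ^ 2 :=
    ⟨_, rfl⟩
  have hSz : S z = ∑ i, fderiv ℝ (d.W0 q) z (ex (ι i)) ^ 2 := by rw [hS]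
  have dS : HasFDerivAt S (∑ i, (2 * fderiv ℝ (d.W0 q) z (ex (ι i))) •
      fderiv ℝ (fun y => fderiv ℝ (d.W0 q) y (ex (ι i))) z) z := by
    rw [hS]
    refine HasFDerivAt.fun_sum fun i _ => ?_
    have h1 := (df i).pow 2
    refine h1.congr_fderiv ?_
    norm_num
  have dG : HasFDerivAt (d.NG q) (fderiv ℝ (d.NG q) z) z := hg.hasFDerivAt
  have hG2 : (d.NG q z) ≠ 0 := by rw [← hGe]; exact hG.ne'
  have dI : HasFDerivAt (fun y => (d.NG q y ^ 2)⁻¹)
      ((-((d.NG q z ^ 2) ^ 2)⁻¹ * (2 * d.NG q z)) • fderiv ℝ (d.NG q) z) z := by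
    have h1 := dG.pow 2
    have h2 := (hasDerivAt_inv (pow_ne_zero 2 hG2)).comp_hasFDerivAt z h1
    refine h2.congr_fderiv ?_
    have e2 : (2 • d.NG q z ^ (2 - 1)) = 2 * d.NG q z := by norm_num
    rw [e2, smul_smul]
  have dP := (dS.mul dI).const_mul (4 / 3 * (t ^ 2)⁻¹)
  have dT : HasFDerivAt (tt d q ι t) ((4 / 3 * (t ^ 2)⁻¹) • (S z •
      ((-((d.NG q z ^ 2) ^ 2)⁻¹ * (2 * d.NG q z)) • fderiv ℝ (d.NG q) z) +
      (d.NG q z ^ 2)⁻¹ • ∑ i, (2 * fderiv ℝ (d.W0 q) z (ex (ι i))) •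
      fderiv ℝ (fun y => fderiv ℝ (d.W0 q) y (ex (ι i))) z)) z := by
    refine (dP.sub_const (1 / 3)).congr_of_eventuallyEq (Eventually.of_forall fun y => ?_)
    unfold tt
    simp only [hS, Pi.mul_apply]
    rw [mul_pow, div_eq_mul_inv _ (t ^ 2 * d.NG q y ^ 2), mul_inv]
    ring
  rw [dT.fderiv]
  simp only [_root_.smul_apply, _root_.add_apply, _root_.sum_apply, smul_eq_mul]
  rw [← hGe]
  obtain ⟨g', hg'⟩ : ∃ g', g' = fderiv ℝ (d.NG q) z (ex k) := ⟨_, rfl⟩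
  rw [← hg']
  have k1 : |g'| ≤ g := by rw [hg']; exact hg1 k
  have hS0 : 0 ≤ S z := by rw [hSz]; exact Finset.sum_nonneg fun _ _ => sq_nonneg _
  have hS1 : S z ≤ (t * G) ^ 2 := by rw [hSz]; exact h3
  have k2 : |∑ i, 2 * fderiv ℝ (d.W0 q) z (ex (ι i)) *
      fderiv ℝ (fun y => fderiv ℝ (d.W0 q) y (ex (ι i))) z (ex k)| ≤ n * (2 * (t * G) * b) := by
    refine sum_le fun i => ?_
    have c1 : |fderiv ℝ (d.W0 q) z (ex (ι i))| ≤ t * G := by
      refine abs_le_of_sq_le_sq ?_ (by positivity)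
      exact (Finset.single_le_sum (f := fun i => fderiv ℝ (d.W0 q) z (ex (ι i)) ^ 2)
        (fun i _ => sq_nonneg _) (Finset.mem_univ i)).trans h3
    have c2 := hW.d2 (ι i) k
    rw [w1, w1, mul_one, mul_one] at c2
    rw [abs_mul, abs_mul, abs_of_pos (by norm_num : (0 : ℝ) < 2)]
    exact mul_le_mul (mul_le_mul_of_nonneg_left c1 (by norm_num)) c2 (abs_nonneg _)
      (by positivity)
  rw [abs_mul, abs_of_pos (by positivity : (0 : ℝ) < 4 / 3 * (t ^ 2)⁻¹)]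
  have k3 : |S z * (-((G ^ 2) ^ 2)⁻¹ * (2 * G) * g')| ≤ 2 * t ^ 2 * g / G := by
    rw [abs_mul, abs_mul, abs_mul, abs_neg, abs_of_pos (by positivity : (0 : ℝ) < ((G ^ 2) ^ 2)⁻¹),
      abs_of_pos (by positivity : (0 : ℝ) < 2 * G), abs_of_nonneg hS0]
    calc S z * (((G ^ 2) ^ 2)⁻¹ * (2 * G) * |g'|) ≤
          (t * G) ^ 2 * (((G ^ 2) ^ 2)⁻¹ * (2 * G) * g) := by
          refine mul_le_mul hS1 ?_ (by positivity) (by positivity)
          exact mul_le_mul_of_nonneg_left k1 (by positivity)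
      _ = 2 * t ^ 2 * g / G := by field_simp
  have k4 : |(G ^ 2)⁻¹ * ∑ i, 2 * fderiv ℝ (d.W0 q) z (ex (ι i)) *
      fderiv ℝ (fun y => fderiv ℝ (d.W0 q) y (ex (ι i))) z (ex k)| ≤
      n * (2 * t * b) / G := by
    rw [abs_mul, abs_of_pos (by positivity : (0 : ℝ) < (G ^ 2)⁻¹)]
    calc _ ≤ (G ^ 2)⁻¹ * (n * (2 * (t * G) * b)) :=
          mul_le_mul_of_nonneg_left k2 (by positivity)
      _ = n * (2 * t * b) / G := by field_simp
  have k5 := (abs_add_le (S z * (-((G ^ 2) ^ 2)⁻¹ * (2 * G) * g'))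
    ((G ^ 2)⁻¹ * ∑ i, 2 * fderiv ℝ (d.W0 q) z (ex (ι i)) *
      fderiv ℝ (fun y => fderiv ℝ (d.W0 q) y (ex (ι i))) z (ex k))).trans (add_le_add k3 k4)
  calc _ ≤ 4 / 3 * (t ^ 2)⁻¹ * (2 * t ^ 2 * g / G + n * (2 * t * b) / G) :=
        mul_le_mul_of_nonneg_left k5 (by positivity)
    _ = 8 / 3 * (n * b / t + g) / G := by field_simp; ring

/-- Differentiability of the cut. -/
theorem tt_diff (h : PkOk q d) (he : 0 < q.e₁) (ι : Fin n → Fin n ⊕ Fin n) {t : ℝ}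
    (ht : 0 < t) (hG : 0 < d.NG q z) : DifferentiableAt ℝ (tt d q ι t) z := by
  have hS := prS_sm he
  have s1 : ContDiff ℝ ∞ (d.G0 q) := h.u0_sm.exp.mul (hS.comp qq_sm)
  have s2 : ContDiff ℝ ∞ (d.NG q) := (h.Φ's.comp h.u0_sm).add s1
  have s3 : ContDiff ℝ ∞ (d.W0 q) := (h.Φs.comp h.u0_sm).add s1
  have s4 : ∀ i, ContDiff ℝ ∞ (fun y => fderiv ℝ (d.W0 q) y (ex (ι i))) := fun i =>
    (s3.fderiv_right (m := ∞) (by norm_num)).clm_apply contDiff_const
  have s5 : DifferentiableAt ℝ (fun y => ∑ i, fderiv ℝ (d.W0 q) y (ex (ι i)) ^ 2) z :=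
    ((ContDiff.sum fun i _ => (s4 i).pow 2).differentiable (by simp)) z
  have s6 : DifferentiableAt ℝ (d.NG q) z := (s2.differentiable (by simp)) z
  have s7 : (t * d.NG q z) ^ 2 ≠ 0 := by positivity
  have s8 : DifferentiableAt ℝ (fun y => 4 * (∑ i, fderiv ℝ (d.W0 q) y (ex (ι i)) ^ 2) /
      (t * d.NG q y) ^ 2) z := by
    simpa only [div_eq_mul_inv] using
      (s5.const_mul 4).fun_mul (((s6.const_mul t).fun_pow 2).fun_inv s7)
  have s9 := (s8.sub_const 1).mul_const (3 : ℝ)⁻¹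
  refine s9.congr_of_eventuallyEq (Eventually.of_forall fun y => ?_)
  unfold tt
  rw [div_eq_mul_inv _ (3 : ℝ)]

theorem NG_diff (h : PkOk q d) (he : 0 < q.e₁) : DifferentiableAt ℝ (d.NG q) z := by
  have s1 : ContDiff ℝ ∞ (d.G0 q) := h.u0_sm.exp.mul ((prS_sm he).comp qq_sm)
  have s2 : ContDiff ℝ ∞ (d.NG q) := (h.Φ's.comp h.u0_sm).add s1
  exact (s2.differentiable (by simp)) z

/-! ## The step -/

theorem st_hd (x : ℝ) : HasDerivAt Real.smoothTransition (deriv Real.smoothTransition x) x :=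
  ((Real.smoothTransition.contDiff (n := 1)).differentiable (by norm_num) _).hasDerivAt

theorem st_fd {f : VV n → ℝ} (hf : DifferentiableAt ℝ f z) (v : VV n) :
    |fderiv ℝ (fun y => Real.smoothTransition (f y)) z v| ≤ 5 * |fderiv ℝ f z v| := by
  obtain ⟨a1, a2⟩ := deriv_st (f z)
  rw [fd_comp hf (st_hd _), abs_mul, abs_of_nonneg a1]
  exact mul_le_mul_of_nonneg_right a2 (abs_nonneg _)

theorem st_fd0 {f : VV n → ℝ} (hf : DifferentiableAt ℝ f z) (h0 : f z ≤ 0) (v : VV n) :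
    fderiv ℝ (fun y => Real.smoothTransition (f y)) z v = 0 := by
  have h1 : deriv Real.smoothTransition (f z) = 0 := by
    refine IsLocalMin.deriv_eq_zero (Eventually.of_forall fun y => ?_)
    rw [Real.smoothTransition.zero_of_nonpos h0]
    exact Real.smoothTransition.nonneg y
  rw [fd_comp hf (st_hd _), h1, zero_mul]

theorem st_diff {f : VV n → ℝ} (hf : DifferentiableAt ℝ f z) :
    DifferentiableAt ℝ (fun y => Real.smoothTransition (f y)) z :=
  ((st_hd (f z)).comp_hasFDerivAt z hf.hasFDerivAt).differentiableAt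

/-! ## The cut-offs of the tubes -/

/-- `rx` and `ry`. -/
def rho (d : Pk n) (q : Cst) (ι : Fin n → Fin n ⊕ Fin n) (z : VV n) : ℝ :=
  H338.TC.rr q z * Real.smoothTransition (1 - tt d q ι (4 * q.rT) z)

theorem rx_eq (d : Pk n) (q : Cst) : H338.TC.rx q d = rho d q Sum.inl := rfl
theorem ry_eq (d : Pk n) (q : Cst) : H338.TC.ry q d = rho d q Sum.inr := rfl

/-- The derivative of the cut-offs of the tubes. -/
theorem rho_fd {ι : Fin n → Fin n ⊕ Fin n} {A : ℝ} (hc : 0 < q.c₀) (hA : 0 ≤ A)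
    (ht : DifferentiableAt ℝ (tt d q ι (4 * q.rT)) z)
    (h1 : tt d q ι (4 * q.rT) z < 1 → ∀ k, |fderiv ℝ (tt d q ι (4 * q.rT)) z (ex k)| ≤ A)
    (hr : √(qq z) ≤ 21 / 10 * q.c₀) (k : Fin n ⊕ Fin n) :
    |fderiv ℝ (rho d q ι) z (ex k)| ≤ 5 * A + 336 / q.c₀ := by
  obtain ⟨F, hF⟩ : ∃ F : VV n → ℝ, F = fun y => 16 * qq y / q.c₀ ^ 2 - 1 := ⟨_, rfl⟩
  have dF : HasFDerivAt F ((16 / q.c₀ ^ 2) • fderiv ℝ qq z) z := by
    rw [hF]
    have h3 := ((qq_hd z).differentiableAt.hasFDerivAt.const_mul (16 / q.c₀ ^ 2)).sub_const 1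
    refine h3.congr_of_eventuallyEq (Eventually.of_forall fun y => ?_)
    field_simp
  have d1 : DifferentiableAt ℝ (fun y => 1 - tt d q ι (4 * q.rT) y) z :=
    (differentiableAt_const 1).sub ht
  have e : rho d q ι = fun y => Real.smoothTransition (F y) *
      Real.smoothTransition (1 - tt d q ι (4 * q.rT) y) := by
    funext y
    rw [hF]
    rfl
  have d2 := st_diff dF.differentiableAt
  have d3 := st_diff d1
  rw [e, fderiv_fun_mul d2 d3]
  simp only [_root_.add_apply, _root_.smul_apply, smul_eq_mul]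
  have b2 := st_fd dF.differentiableAt (ex k)
  have s3 := Real.smoothTransition.nonneg (F z)
  have s4 := Real.smoothTransition.le_one (F z)
  have s1 := Real.smoothTransition.nonneg (1 - tt d q ι (4 * q.rT) z)
  have s2 := Real.smoothTransition.le_one (1 - tt d q ι (4 * q.rT) z)
  have b3 : |fderiv ℝ F z (ex k)| ≤ 336 / 5 / q.c₀ := by
    have j := (jb_qq z).d1 k
    rw [w1, mul_one] at j
    rw [dF.fderiv, _root_.smul_apply, smul_eq_mul, abs_mul,
      abs_of_pos (by positivity : (0 : ℝ) < 16 / q.c₀ ^ 2)]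
    calc 16 / q.c₀ ^ 2 * |fderiv ℝ qq z (ex k)| ≤ 16 / q.c₀ ^ 2 * (42 / 10 * q.c₀) :=
          mul_le_mul_of_nonneg_left (by linarith) (by positivity)
      _ = 336 / 5 / q.c₀ := by field_simp; norm_num
  have b1 : |fderiv ℝ (fun y => Real.smoothTransition (1 - tt d q ι (4 * q.rT) y)) z (ex k)| ≤
      5 * A := by
    rcases le_or_gt 1 (tt d q ι (4 * q.rT) z) with h2 | h2
    · rw [st_fd0 d1 (by linarith), abs_zero]
      positivity
    · refine (st_fd d1 (ex k)).trans (mul_le_mul_of_nonneg_left ?_ (by norm_num))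
      have e1 : fderiv ℝ (fun y => 1 - tt d q ι (4 * q.rT) y) z (ex k) =
          -(fderiv ℝ (tt d q ι (4 * q.rT)) z (ex k)) := by
        rw [fderiv_fun_sub (differentiableAt_const 1) ht]
        simp
      rw [e1, abs_neg]
      exact h1 h2 k
  refine (abs_add_le _ _).trans ?_
  rw [abs_mul, abs_mul, abs_of_nonneg s3, abs_of_nonneg s1]
  have c1 : Real.smoothTransition (1 - tt d q ι (4 * q.rT) z) *
      |fderiv ℝ (fun y => Real.smoothTransition (F y)) z (ex k)| ≤ 1 * (5 * (336 / 5 / q.c₀)) :=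
    mul_le_mul s2 (b2.trans (by linarith)) (abs_nonneg _) zero_le_one
  have c2 : Real.smoothTransition (F z) *
      |fderiv ℝ (fun y => Real.smoothTransition (1 - tt d q ι (4 * q.rT) y)) z (ex k)| ≤
      1 * (5 * A) := mul_le_mul s4 b1 (abs_nonneg _) zero_le_one
  have e3 : 5 * (336 / 5 / q.c₀) = 336 / q.c₀ := by ring
  linarith

end Vale.Agent.P088.R2.H680.C
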