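import Vale.Agent.P088.R2.H680.C.TubeD

/-!
# P088, stage 3: the tubes of region I, the pointwise theorem

The structure `TF` of helper338 at a point of the tubes where the weight is close to the flat
weight.
-/

open Set Filter
open scoped ContDiff Topology

noncomputable section

namespace Vale.Agent.P088.R2.H680.C

open Vale.Agent.P088.LR Vale.Agent.P088.HY
open Vale.Agent.P088.R2.H31.EP Vale.Agent.P088.R2.H238.C Vale.Agent.P088.R2.H932.EP
open Vale.Agent.P088.R2.H606.EP Vale.Agent.P088.R2.H475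
open Vale.Agent.P088.R2.H205.CP (nuL)
open Vale.Agent.P088.R2.H338.TC (Na rx ry TF)
open Vale.Agent.P088.R2.H464.Cu (mid midL midL_apply)

variable {n : ℕ} {q : Cst} {d : Pk n} {z : VV n}

/-- The weight is close to the flat weight near `z`. -/
structure Nw (q : Cst) (d : Pk n) (z : VV n) : Prop where
  u : d.u q =ᶠ[𝓝 z] d.u0
  W : JB ex w1 (fun z => d.W q z - d.W0 q z) 1 1 z

theorem NG_pos (h : PkOk q d) (C : Tc q) (N : Tn q d z) : 0 < d.NG q z :=
  lt_of_lt_of_le (N_pos h C.T (d.u0 z)) N.G1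

/-- The bounds of the derivatives of the flat weight on the tubes. -/
theorem tube_ab (h : PkOk q d) (C : Tc q) (N : Tn q d z) (hu : d.u0 z ≤ d.uta q) :
    4 * deriv d.Φ (d.u0 z) + 40 * (Real.exp (d.u0 z) * √(qq z)) ≤ 46 * deriv d.Φ (d.u0 z) ∧
    q.c₀ * (16 * deriv (deriv d.Φ) (d.u0 z) + 2 * deriv d.Φ (d.u0 z) +
      248 * Real.exp (d.u0 z)) ≤ 1042 * deriv d.Φ (d.u0 z) ∧
    4 * deriv (deriv d.Φ) (d.u0 z) + 40 * (Real.exp (d.u0 z) * √(qq z)) ≤
      51 * deriv d.Φ (d.u0 z) := by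
  have hN := N_pos h C.T (d.u0 z)
  have hK := h.top.k1 (d.u0 z) hu
  have hc := C.c
  have hc0 := C.T.c0
  have t2 := N.t2
  have E := N.E
  refine ⟨by linarith, ?_, by linarith⟩
  have h1 : 16 * deriv (deriv d.Φ) (d.u0 z) + 2 * deriv d.Φ (d.u0 z) ≤
      36 * deriv d.Φ (d.u0 z) := by linarith
  have h2 := mul_le_mul_of_nonneg_left h1 hc0.le
  have h3 : q.c₀ * (36 * deriv d.Φ (d.u0 z)) ≤ 1 / 1000 * (36 * deriv d.Φ (d.u0 z)) :=
    mul_le_mul_of_nonneg_right hc (by positivity)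
  linarith

/-- The derivative of the cut at `|∂_ι W0| ~ t NG`. -/
theorem tt_le {ι : Fin n → Fin n ⊕ Fin n} (hn : 1 ≤ n) (h : PkOk q d) (C : Tc q) (t : Tz q d z)
    (N : Tn q d z) (hu : d.u0 z ≤ d.uta q) (h1 : tt d q ι (4 * q.rT) z < 1)
    (k : Fin n ⊕ Fin n) :
    |fderiv ℝ (tt d q ι (4 * q.rT)) z (ex k)| ≤ 700 * n / (q.c₀ * q.rT) := by
  have hn' : (1 : ℝ) ≤ n := by exact_mod_cast hn
  have hG := NG_pos h C N
  have hc0 := C.T.c0
  have hc := C.c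
  have hr0 := C.r0
  have hr1 := C.r1
  have hG1 := N.G1
  have hlt : √(qq z) < 1 := by linarith [t.r2]
  have ht : 0 < 4 * q.rT := by linarith
  have h3 : ∑ i, fderiv ℝ (d.W0 q) z (ex (ι i)) ^ 2 ≤ (4 * q.rT * d.NG q z) ^ 2 := by
    unfold tt at h1
    have h0 : 0 < (4 * q.rT * d.NG q z) ^ 2 := by positivity
    have h2 : 4 * (∑ i, fderiv ℝ (d.W0 q) z (ex (ι i)) ^ 2) / (4 * q.rT * d.NG q z) ^ 2 < 4 := by
      linarith
    rw [div_lt_iff₀ h0] at h2
    linarith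
  obtain ⟨-, a2, a3⟩ := tube_ab h C N hu
  have jW := jb_W0 h C.T C.e₁ t.x t.y hlt
  obtain ⟨b, hb⟩ : ∃ b, b = 16 * deriv (deriv d.Φ) (d.u0 z) + 2 * deriv d.Φ (d.u0 z) +
    248 * Real.exp (d.u0 z) := ⟨_, rfl⟩
  obtain ⟨g, hg⟩ : ∃ g, g = 4 * deriv (deriv d.Φ) (d.u0 z) +
    40 * (Real.exp (d.u0 z) * √(qq z)) := ⟨_, rfl⟩
  have hK := K_pos h (d.u0 z)
  have hE := Real.exp_pos (d.u0 z)
  have hN := N_pos h C.T (d.u0 z)
  have hb0 : 0 ≤ b := by rw [hb]; positivity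
  have hg0 : 0 ≤ g := by rw [hg]; positivity
  rw [← hb] at a2 jW
  rw [← hg] at a3
  have gb : ∀ k, |fderiv ℝ (d.NG q) z (ex k)| ≤ g := fun k => by
    rw [hg]
    exact NG_fd h C.T C.e₁ t.x t.y hlt k
  refine (tt_fd ht hG jW (NG_diff h C.e₁) gb h3 k).trans ?_
  obtain ⟨G, hGe⟩ : ∃ G, G = d.NG q z := ⟨_, rfl⟩
  rw [← hGe] at hG hG1 ⊢
  clear hGe jW h3 h1 hb hg hK hE gb
  have b1 : q.c₀ * b ≤ 1042 * G := by linarith
  have g1 : g ≤ 51 * G := by linarith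
  have hD : 0 < q.c₀ * q.rT := by positivity
  rw [le_div_iff₀ hD]
  have e1 : 8 / 3 * (n * b / (4 * q.rT) + g) / G * (q.c₀ * q.rT) =
      8 / 3 * (n * (q.c₀ * b / G) / 4 + g / G * (q.c₀ * q.rT)) := by
    field_simp
  have b2 : q.c₀ * b / G ≤ 1042 := by rw [div_le_iff₀ hG]; exact b1
  have g2 : g / G ≤ 51 := by rw [div_le_iff₀ hG]; exact g1
  have b3 : 0 ≤ q.c₀ * b / G := by positivity
  have g3 : 0 ≤ g / G := by positivity
  have hcr : q.c₀ * q.rT ≤ 1 / 1000 * (1 / 200) := mul_le_mul hc hr1 hr0.le (by norm_num)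
  have e2 : n * (q.c₀ * b / G) / 4 ≤ n * 1042 / 4 := by gcongr
  have e3 : g / G * (q.c₀ * q.rT) ≤ 51 * (1 / 1000 * (1 / 200)) :=
    mul_le_mul g2 hcr hD.le (by norm_num)
  rw [e1]
  linarith

/-- `ν · W_ι` near the other tube. -/
theorem nv {ι ι' : Fin n → Fin n ⊕ Fin n} (h : PkOk q d) (C : Tc q)
    (hM : 100 * n ≤ q.M₀) (t : Tz q d z) (w : Nw q d z) (N : Tn q d z)
    (hab : ∀ i, fderiv ℝ (d.W0 q) z (ex (ι i)) =
      2 * d.NG q z * ww n q (mid z) i - fderiv ℝ (d.W0 q) z (ex (ι' i)))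
    (h3 : ∑ i, fderiv ℝ (d.W0 q) z (ex (ι' i)) ^ 2 ≤ (4 * q.rT * d.NG q z) ^ 2) :
    Na d z / 8 ≤ |∑ i, nuL d i z * fderiv ℝ (d.W q) z (ex (ι i))| := by
  have hG := NG_pos h C N
  have hM0 := N_ge h (d.u0 z)
  have hlt : √(qq z) < 1 := by linarith [t.r2, C.c]
  have jW := jb_W0 h C.T C.e₁ t.x t.y hlt
  have jw : JB ex w1 (d.W q) _ _ z := (jW.add w.W).congr (Eventually.of_forall fun y => by
    simp only
    ring)
  obtain ⟨c1, c2⟩ := nu_dot h C.T t.p (a := fun i => fderiv ℝ (d.W0 q) z (ex (ι i)))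
    (b := fun i => fderiv ℝ (d.W0 q) z (ex (ι' i))) (τ := 4 * q.rT) hG (by linarith [C.r1]) hab
    h3 (by linarith [C.r0])
  have d1 := (ev_diff jw.sm).self_of_nhds
  have d2 := (ev_diff jW.sm).self_of_nhds
  have e0 : ∑ i, nuL d i z * fderiv ℝ (d.W q) z (ex (ι i)) =
      (∑ i, nuL d i z * fderiv ℝ (d.W0 q) z (ex (ι i))) +
        ∑ i, nuL d i z * fderiv ℝ (fun z => d.W q z - d.W0 q z) z (ex (ι i)) := by
    rw [← Finset.sum_add_distrib]
    refine Finset.sum_congr rfl fun i _ => ?_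
    rw [fderiv_fun_sub d1 d2]
    simp only [_root_.sub_apply]
    ring
  have c3 : |∑ i, nuL d i z * fderiv ℝ (fun z => d.W q z - d.W0 q z) z (ex (ι i))| ≤ n * 1 := by
    refine sum_le fun i => ?_
    have := w.W.d1 (ι i)
    rw [w1, mul_one] at this
    rw [abs_mul]
    calc _ ≤ 1 * 1 := mul_le_mul (nuL_abs h C.T t.p i) this (abs_nonneg _) zero_le_one
      _ = 1 := one_mul _
  have c4 := abs_le.1 c3
  have hG1 := N.G1
  have c5 : Na d z / 8 ≤ ∑ i, nuL d i z * fderiv ℝ (d.W q) z (ex (ι i)) := by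
    rw [e0]
    unfold Na
    linarith [c4.1]
  exact c5.trans (le_abs_self _)

/-- **The facts at a point of the tubes.** -/
theorem tf (hn : 1 ≤ n) (h : PkOk q d) (C : Tc q) (hM : 100 * n ≤ q.M₀) (t : Tz q d z)
    (w : Nw q d z) (N : Tn q d z) (hu : d.u0 z ≤ d.uta q)
    (hK : deriv d.Φ (d.u0 z) ≤ 2 * deriv (deriv d.Φ) (d.u0 z))
    (hr2 : d.r2 z ≤ 102 / 100 * qq z)
    (hx : rx q d z ≠ 0 → ∑ i, dx i (d.W0 q) z ^ 2 ≤ (4 * q.rT * d.NG q z) ^ 2)
    (hy : ry q d z ≠ 0 → ∑ i, dy i (d.W0 q) z ^ 2 ≤ (4 * q.rT * d.NG q z) ^ 2) :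
    TF (4000 * n / (q.c₀ * q.rT)) q d z := by
  have hn' : (1 : ℝ) ≤ n := by exact_mod_cast hn
  have hG := NG_pos h C N
  have hc0 := C.T.c0
  have hc := C.c
  have hr0 := C.r0
  have hr1 := C.r1
  have hN := N_pos h C.T (d.u0 z)
  have hM0 := N_ge h (d.u0 z)
  have hM1 := C.T.M1
  have hE := Real.exp_pos (d.u0 z)
  have hq0 := qq_nonneg z
  have hrr := Real.sqrt_nonneg (qq z)
  have hrs := Real.sq_sqrt hq0
  have hlt : √(qq z) < 1 := by linarith [t.r2]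
  obtain ⟨a1, a2, -⟩ := tube_ab h C N hu
  have jW := jb_W0 h C.T C.e₁ t.x t.y hlt
  have eu : d.u q z = d.u0 z := w.u.self_of_nhds
  have eE : d.E q z = Real.exp (d.u0 z) := by unfold Pk.E; rw [eu]
  have jw : JB ex w1 (d.W q) _ _ z := (jW.add w.W).congr (Eventually.of_forall fun y => by
    simp only
    ring)
  have hcr : 0 < q.c₀ * q.rT := by positivity
  obtain ⟨A, hA⟩ : ∃ A, A = 4000 * n / (q.c₀ * q.rT) := ⟨_, rfl⟩
  have hAc : 4000 ≤ q.c₀ * A := by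
    have e : q.c₀ * A = 4000 * n / q.rT := by rw [hA]; field_simp
    rw [e, le_div_iff₀ hr0]
    nlinarith
  have hA0 : 0 ≤ A := by rw [hA]; positivity
  have hA1 : 4000 ≤ A := by nlinarith
  rw [← hA]
  have w1b : ∀ k, |fderiv ℝ (d.W q) z (ex k)| ≤ A * Na d z := fun k => by
    have := jw.d1 k
    rw [w1, mul_one] at this
    unfold Na
    nlinarith
  have w2b : ∀ k k', |fderiv ℝ (fun y => fderiv ℝ (d.W q) y (ex k)) z (ex k')| ≤ A * Na d z :=
    fun k k' => by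
    have := jw.d2 k k'
    rw [w1, w1, mul_one, mul_one] at this
    refine this.trans ?_
    unfold Na
    have h1 : q.c₀ * (16 * deriv (deriv d.Φ) (d.u0 z) + 2 * deriv d.Φ (d.u0 z) +
        248 * Real.exp (d.u0 z) + 1) ≤ q.c₀ * (A * deriv d.Φ (d.u0 z)) := by
      have h2 := mul_le_mul_of_nonneg_right hAc hN.le
      linarith
    exact le_of_mul_le_mul_left h1 hc0
  have j0 := jb_u0 h C.T t.x t.y
  have d0 := (ev_diff j0.sm).self_of_nhds
  have hd : HasDerivAt (deriv d.Φ) (deriv (deriv d.Φ) (d.u0 z)) (d.u0 z) :=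
    ((h.Φ's.differentiable (by simp)) _).hasDerivAt
  have hKK := K_pos h (d.u0 z)
  have hK1 := h.top.k1 (d.u0 z) hu
  have nb : ∀ k, |fderiv ℝ (Na d) z (ex k)| ≤ A * Na d z := fun k => by
    have e : Na d = fun y => deriv d.Φ (d.u0 y) := rfl
    have a := j0.d1 k
    rw [w1, mul_one] at a
    rw [e, fd_comp d0 hd, abs_mul, abs_of_pos hKK]
    have := mul_le_mul_of_nonneg_left a hKK.le
    nlinarith
  have hν := nuL_fd h C.T t.p (z := z) (d := d)
  have rb : ∀ (ι : Fin n → Fin n ⊕ Fin n) k, |fderiv ℝ (rho d q ι) z (ex k)| ≤ A := fun ι k => by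
    refine (rho_fd hc0 (by positivity) (tt_diff h C.e₁ ι (by linarith) hG)
      (fun h1 k => tt_le hn h C t N hu h1 k) t.r2 k).trans ?_
    have e1 : 336 / q.c₀ = 336 * q.rT / (q.c₀ * q.rT) := by field_simp
    rw [hA, e1, ← mul_div_assoc, ← add_div]
    refine div_le_div_of_nonneg_right ?_ hcr.le
    linarith
  refine
    { N0 := hM0
      EN := ?_
      NE := ?_
      mN := ?_
      KN := ?_
      NN := by unfold Na Pk.N; rw [eu]
      wx := fun i => w1b (Sum.inl i)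
      wy := fun i => w1b (Sum.inr i)
      wxx := fun i j => w2b (Sum.inl j) (Sum.inl i)
      wyy := fun i j => w2b (Sum.inr j) (Sum.inr i)
      nx := fun i => nb (Sum.inl i)
      ny := fun i => nb (Sum.inr i)
      ν1 := nuL_sq h C.T t.p
      νx := fun i j => hν j (Sum.inl i)
      νy := fun i j => hν j (Sum.inr i)
      ρxx := fun i => rb Sum.inl (Sum.inl i)
      ρxy := fun i => rb Sum.inl (Sum.inr i)
      ρyx := fun i => rb Sum.inr (Sum.inl i)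
      ρyy := fun i => rb Sum.inr (Sum.inr i)
      vx := fun h0 => ?_
      vy := fun h0 => ?_ }
  · rw [eE]
    unfold Na
    have h1 := mul_le_mul_of_nonneg_left t.r2 hE.le
    linarith [N.t1, mul_pos hc0 hE]
  · rw [eE]
    unfold Na
    have h1 : q.c₀ * Real.exp (d.u0 z) ≤ q.c₀ * (A * deriv d.Φ (d.u0 z)) := by
      have h2 := mul_le_mul_of_nonneg_right hAc hN.le
      linarith [N.E]
    exact le_of_mul_le_mul_left h1 hc0
  · unfold Pk.m
    rw [eE]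
    unfold Na
    have h1 : Real.exp (d.u0 z) * d.r2 z ≤ Real.exp (d.u0 z) * (102 / 100 * qq z) :=
      mul_le_mul_of_nonneg_left hr2 hE.le
    have h2 : Real.exp (d.u0 z) * qq z = Real.exp (d.u0 z) * √(qq z) * √(qq z) := by
      rw [mul_assoc, ← _root_.sq, hrs]
    have h3 : Real.exp (d.u0 z) * √(qq z) * √(qq z) ≤
        105 / 100 * deriv d.Φ (d.u0 z) * (21 / 10 * q.c₀) :=
      mul_le_mul N.t2 t.r2 hrr (by positivity)
    have h4 : 0 < q.c₀ * deriv d.Φ (d.u0 z) := by positivity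
    linarith
  · unfold Na Pk.Kf
    rw [eu]
    exact hK
  · refine nv (ι := Sum.inr) (ι' := Sum.inl) h C hM t w N (fun i => ?_) (hx h0)
    rw [W0_x h C.T C.e₁ t.x, W0_y h C.T C.e₁ t.y, ww_mid]
    ring
  · refine nv (ι := Sum.inl) (ι' := Sum.inr) h C hM t w N (fun i => ?_) (hy h0)
    rw [W0_x h C.T C.e₁ t.x, W0_y h C.T C.e₁ t.y, ww_mid]
    ring

end Vale.Agent.P088.R2.H680.C
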