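import Vale.Agent.P088.R2.H680.C.TubeE
import Vale.Agent.P088.R2.H238.C.Loc
import Vale.Agent.P088.R2.H222.PkT

/-!
# P088, stage 3: the tubes of region I, row TF

`rowTF : RowTF`.
-/

open Set Filter
open scoped ContDiff Topology

noncomputable section

namespace Vale.Agent.P088.R2.H680.C

open Vale.Agent.P088.LR Vale.Agent.P088.HY
open Vale.Agent.P088.R2.H31.EP Vale.Agent.P088.R2.H238.C Vale.Agent.P088.R2.H932.EP
open Vale.Agent.P088.R2.H606.EP Vale.Agent.P088.R2.H475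
open Vale.Agent.P088.R2.H205.CP (nuL OI)
open Vale.Agent.P088.R2.H338.TC (Na rx ry TF RowTF)
open Vale.Agent.P088.R2.H464.Cu (mid midL midL_apply)
open Vale.Agent.P088.R2.H222 (Bk UT aT bT pkT isOpen_UT)

variable {n : ℕ} {q : Cst} {d : Pk n} {z : VV n}

/-! ## From bounds of the iterated derivatives -/

theorem bk_jb {U : Set (VV n)} {f : VV n → ℝ} {δ : ℝ} (h : Bk 2 U δ f) (hz : z ∈ U) :
    JB ex w1 f δ δ z := by
  have hs : ContDiffAt ℝ 2 f z :=
    ((h.s z hz).contDiffAt (h.o.mem_nhds hz)).of_le (WithTop.coe_le_coe.2 le_top)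
  have hδ : 0 ≤ δ := (norm_nonneg _).trans (h.b 0 (by norm_num) z hz)
  refine ⟨hs, fun k => ?_, fun k k' => ?_⟩
  · have e : fderiv ℝ f z (ex k) = iteratedFDeriv ℝ 1 f z (fun _ => ex k) := by
      rw [iteratedFDeriv_one_apply]
    rw [e, w1, mul_one]
    have h1 := (iteratedFDeriv ℝ 1 f z).le_opNorm (fun _ => ex k)
    have h2 := h.b 1 (by norm_num) z hz
    rw [Real.norm_eq_abs] at h1
    refine h1.trans ?_
    have h3 : ∏ _i : Fin 1, ‖(ex k : VV n)‖ ≤ 1 := by simpa using norm_ex k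
    have h4 : 0 ≤ ∏ _i : Fin 1, ‖(ex k : VV n)‖ := Finset.prod_nonneg fun _ _ => norm_nonneg _
    calc _ ≤ δ * 1 := mul_le_mul h2 h3 h4 hδ
      _ = δ := mul_one _
  · have hd : DifferentiableAt ℝ (fderiv ℝ f) z :=
      (hs.fderiv_right (m := 1) (by norm_num)).differentiableAt (by norm_num)
    have e : fderiv ℝ (fun y => fderiv ℝ f y (ex k)) z (ex k') =
        iteratedFDeriv ℝ 2 f z ![ex k', ex k] := by
      rw [iteratedFDeriv_two_apply, fderiv_clm_apply hd (differentiableAt_const _)]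
      simp
    rw [e, w1, w1, mul_one, mul_one]
    have h1 := (iteratedFDeriv ℝ 2 f z).le_opNorm ![ex k', ex k]
    have h2 := h.b 2 le_rfl z hz
    rw [Real.norm_eq_abs, Fin.prod_univ_two] at h1
    refine h1.trans ?_
    simp only [Matrix.cons_val_zero, Matrix.cons_val_one]
    have h3 : ‖(ex k' : VV n)‖ * ‖(ex k : VV n)‖ ≤ 1 * 1 :=
      mul_le_mul (norm_ex k') (norm_ex k) (norm_nonneg _) zero_le_one
    calc _ ≤ δ * (1 * 1) := mul_le_mul h2 h3 (by positivity) hδ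
      _ = δ := by ring

/-! ## The windows -/

theorem qq222 (z : VV n) : H222.qq z = qq z := rfl

/-- The reverse pass. -/
theorem nw_R (hn : 1 ≤ n) (h : PkOk q d) (T : Th q) (E : Te n q) (hz : z ∈ Gz2 q d) :
    Nw q d z := by
  have ho := (isOpen_Gz2 h T E).mem_nhds hz
  have eu : ∀ y ∈ Gz2 q d, d.u q y = d.u0 y := fun y hy => by
    rw [u_Gz h hy.1, mu_Gz2 T hy]
    unfold Pk.u0
    ring
  refine ⟨?_, ?_⟩
  · filter_upwards [ho] with y hy using eu y hy
  · have h1 : (fun y => d.W q y - d.W0 q y) =ᶠ[𝓝 z] fun _ => (0 : ℝ) := by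
      filter_upwards [ho] with y hy
      have e2 : d.r2 y = qq y := r2_Gz2 hn h T hy
      rw [W_Gz h T E hy.1, eu y hy, e2]
      unfold Pk.W0 Pk.G0
      ring
    exact ((JB.const (e := ex) (s := w1) (z := z) (0 : ℝ)).congr h1).mono w1_nn zero_le_one
      zero_le_one

/-- The constant of the window of the first pass. -/
def cA (q : Cst) : ℝ := |5 * ((1 + q.ph.CT) * q.ph.Cb) / q.c₀| + 1

theorem cA_pos (q : Cst) : 0 < cA q := by unfold cA; positivity

theorem cA_NB : NB_Cs cA := fun _ => rfl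

/-- The points of the tubes on the first pass are in the window. -/
theorem mem_UT (h : PkOk q d) (T : Th q) (L : LI q d z) (hu : d.u q z ≤ U₁ q)
    (hE : q.c₀ * Real.exp (d.u0 z) ≤ 42 / 10 * deriv d.Φ (d.u0 z)) :
    z ∈ UT d.l 1 (aT cA q) (bT cA q) := by
  have hu2 : |d.u q z - d.u0 z| ≤ 1 / 4 := u_abs h z
  obtain ⟨u1, u2⟩ := abs_le.1 hu2
  have hM := T.M1
  have hA := cA_pos q
  have hc0 := T.c0
  have hA1 : 1 ≤ cA q := by unfold cA; linarith [abs_nonneg (5 * ((1 + q.ph.CT) * q.ph.Cb) / q.c₀)]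
  have hlt : √(qq z) < 1 := by
    have h1 : √(qq z) ≤ 3 * q.c₀ := L.δ
    have h2 := T.c1
    linarith
  have e0 : d.l z.1 + d.l z.2 = d.u0 z := rfl
  refine ⟨?_, ?_, ?_⟩
  · rw [qq222]
    exact qq_lt hlt
  · rw [e0]
    unfold aT
    rw [Real.log_lt_iff_lt_exp (by positivity)]
    have h1 : q.M₀ ≤ 1 / 100 * Real.exp (d.u q z) :=
      L.nu.E1.trans (mul_le_mul_of_nonneg_right T.aC1 (Real.exp_pos _).le)
    have h2 : Real.exp (d.u q z) * (3 / 4) ≤ Real.exp (d.u0 z) := by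
      have h3 : (3 / 4 : ℝ) ≤ Real.exp (-(1 / 4)) := by
        have := Real.add_one_le_exp (-(1 / 4) : ℝ)
        linarith
      calc Real.exp (d.u q z) * (3 / 4) ≤ Real.exp (d.u q z) * Real.exp (-(1 / 4)) :=
            mul_le_mul_of_nonneg_left h3 (Real.exp_pos _).le
        _ = Real.exp (d.u q z - 1 / 4) := by rw [← Real.exp_add]; ring_nf
        _ ≤ Real.exp (d.u0 z) := Real.exp_le_exp.2 (by linarith)
    have h4 : q.M₀ / cA q ≤ q.M₀ := div_le_self (by linarith) hA1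
    linarith
  · rw [e0]
    unfold bT
    rw [Real.lt_log_iff_exp_lt (by positivity)]
    have hR := T.R1
    have hU := T.rU
    have hth := uth_ge h T
    have h1 := N_le h T (u := d.u0 z) (by linarith)
    have hp : 0 < (1 + q.ph.CT) * q.ph.Cb := mul_pos (by linarith [T.CT0]) T.Cb0
    have h2 : q.c₀ * Real.exp (d.u0 z) ≤ 42 / 10 * ((1 + q.ph.CT) * q.ph.Cb * q.M₀) := by
      refine hE.trans (mul_le_mul_of_nonneg_left (h1.trans (le_of_eq ?_)) (by norm_num))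
      unfold N₁
      ring
    have h3 : 5 * ((1 + q.ph.CT) * q.ph.Cb) / q.c₀ < cA q := by
      unfold cA
      linarith [le_abs_self (5 * ((1 + q.ph.CT) * q.ph.Cb) / q.c₀)]
    rw [div_lt_iff₀ hc0] at h3
    have h4 : q.c₀ * Real.exp (d.u0 z) < q.c₀ * (cA q * q.M₀) := by
      have h5 := mul_lt_mul_of_pos_right h3 (by linarith : 0 < q.M₀)
      have h6 : 0 < (1 + q.ph.CT) * q.ph.Cb * q.M₀ := by positivity
      linarith
    exact lt_of_mul_lt_mul_left h4 hc0.le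

/-- The first pass. -/
theorem nw_T {δ : ℝ} (hl : Continuous d.l) (hδ : δ ≤ 1)
    (hz : z ∈ UT d.l 1 (aT cA q) (bT cA q))
    (H1 : ∀ y ∈ UT d.l 1 (aT cA q) (bT cA q), d.u q y = d.l y.1 + d.l y.2)
    (H2 : Bk 2 (UT d.l 1 (aT cA q) (bT cA q)) δ
      (fun y => d.W q y - H222.W0 (d.F q) d.l y)) : Nw q d z := by
  have ho := (isOpen_UT hl 1 (aT cA q) (bT cA q)).mem_nhds hz
  refine ⟨?_, ?_⟩
  · filter_upwards [ho] with y hy using H1 y hy
  · exact (bk_jb H2 hz).mono w1_nn hδ hδ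

/-- `K` is comparable with `N`. -/
theorem kn (h : PkOk q d) (T : Th q) (hν : q.ν₁ ≤ q.c₀ / 5) (L : LI q d z)
    (w : d.u q z = d.u0 z) (hN : d.N q z ≤ q.aC * d.E q z)
    (hE : q.c₀ * Real.exp (d.u0 z) ≤ 42 / 10 * deriv d.Φ (d.u0 z)) :
    deriv d.Φ (d.u0 z) ≤ 2 * deriv (deriv d.Φ) (d.u0 z) := by
  have hNp := N_pos h T (d.u0 z)
  have hEp := Real.exp_pos (d.u0 z)
  have hR := T.R1
  have hth := uth_ge h T
  have hta := uth_uta h T
  have hut := L.nu.ut
  rw [w] at hut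
  have e1 : d.N q z = deriv d.Φ (d.u0 z) := by unfold Pk.N; rw [w]
  have e2 : d.E q z = Real.exp (d.u0 z) := by unfold Pk.E; rw [w]
  rw [e1, e2] at hN
  rcases L.pass with ⟨h1, -⟩ | ⟨h1, -⟩
  · rw [w] at h1
    have hU := T.rU
    have h2 : d.u0 z ≤ d.uth q / 2 := by linarith
    have e3 := h.top.e1 _ h2
    have e4 := h.top.e2 _ h2
    have h5 : q.ν₁ * Real.exp (d.u0 z) ≤ deriv d.Φ₁ (d.u0 z) := by
      rw [← e3]
      have := mul_le_mul_of_nonneg_right hν hEp.le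
      linarith
    have h6 : deriv d.Φ₁ (d.u0 z) ≤ q.nm * Real.exp (d.u0 z) := by
      rw [← e3]
      refine hN.trans (mul_le_mul_of_nonneg_right ?_ hEp.le)
      linarith [T.nm1, T.aC1]
    have h7 := h.ph.isΦ.p1 _ h5 h6
    rw [e4, h7, ← e3]
    linarith
  · rw [w] at h1
    have h6 := h.top.x1 (d.u0 z) (by linarith) (by linarith)
    rw [h6]
    linarith

/-! ## The supports -/

theorem NG_pos' (h : PkOk q d) (T : Th q) (he : 0 < q.e₁) (hlt : √(qq z) < 1) :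
    0 < d.NG q z := by
  have hq1 : qq z < 1 := by have := qq_lt hlt; linarith
  have P := pn_ok he (qq_nonneg z) hq1
  have := N_pos h T (d.u0 z)
  have hS : 0 ≤ prS q.e₁ (qq z) := by linarith [P.lo, qq_nonneg z]
  have := mul_nonneg (Real.exp_pos (d.u0 z)).le hS
  unfold Pk.NG Pk.G0
  linarith

theorem rho_ne {ι : Fin n → Fin n ⊕ Fin n} (hc : 0 < q.c₀) (hT : 0 < q.rT)
    (h0 : rho d q ι z ≠ 0) (hG : 0 < d.NG q z) : q.c₀ / 4 ≤ √(qq z) ∧
      ∑ i, fderiv ℝ (d.W0 q) z (ex (ι i)) ^ 2 ≤ (4 * q.rT * d.NG q z) ^ 2 := by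
  have h1 : H338.TC.rr q z ≠ 0 := fun h => h0 (by unfold rho; rw [h, zero_mul])
  have h2 : Real.smoothTransition (1 - tt d q ι (4 * q.rT) z) ≠ 0 := fun h =>
    h0 (by unfold rho; rw [h, mul_zero])
  constructor
  · have h3 : 0 < 16 * qq z / q.c₀ ^ 2 - 1 := by
      by_contra hh
      exact h1 (Real.smoothTransition.zero_of_nonpos (not_lt.1 hh))
    have h4 : 1 < 16 * qq z / q.c₀ ^ 2 := by linarith
    rw [lt_div_iff₀ (by positivity)] at h4
    refine Real.le_sqrt_of_sq_le ?_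
    linarith
  · have h3 : 0 < 1 - tt d q ι (4 * q.rT) z := by
      by_contra hh
      exact h2 (Real.smoothTransition.zero_of_nonpos (not_lt.1 hh))
    unfold tt at h3
    have h5 : 0 < (4 * q.rT * d.NG q z) ^ 2 := by positivity
    have h6 : 4 * (∑ i, fderiv ℝ (d.W0 q) z (ex (ι i)) ^ 2) / (4 * q.rT * d.NG q z) ^ 2 < 4 := by
      linarith
    rw [div_lt_iff₀ h5] at h6
    linarith

end Vale.Agent.P088.R2.H680.C
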